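import Vale.Agent.Lib.P308.Ore

/-- Let `G` be a finite simple graph with a perfect matching, on `n` vertices, such that
`deg u + deg v + k ≥ n` for all distinct non-adjacent `u, v`.  Then the number of near-perfect
matchings is at most `n ^ (max 2 (k + 1))` times the number of perfect matchings. -/
theorem Vale.Agent.Results.P308.OreRatio.result {V : Type*} [Fintype V] [DecidableEq V]
    (G : SimpleGraph V) [DecidableRel G.Adj] (k : ℕ)
    (hore : ∀ u v, u ≠ v → ¬ G.Adj u v → Fintype.card V ≤ G.degree u + G.degree v + k)
    (hex : ∃ M, Vale.Agent.Lib.P308.IsPM G M) :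
    Vale.Agent.Lib.P308.numNearPM G ≤
      Fintype.card V ^ (max 2 (k + 1)) * Vale.Agent.Lib.P308.numPM G :=
  Vale.Agent.Lib.P308.numNearPM_le_pow_ore G k hore hex
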