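import Vale.Agent.Results.P308.IndepRatio
import Vale.Agent.Results.P308.OreRatio

/-- The ratio of near-perfect to perfect matchings is polynomially bounded under bounded independence
number and under an Ore type degree condition. -/
theorem Vale.Agent.Results.P308.A0Conj.result.{u} :
    (∀ {V : Type u} [Fintype V] [DecidableEq V]
      (G : SimpleGraph V) (_ : ∃ M, Vale.Agent.Lib.P308.IsPM G M),
      Vale.Agent.Lib.P308.numNearPM G ≤
        Fintype.card V ^ (3 * G.indepNum) * Vale.Agent.Lib.P308.numPM G) ∧
    (∀ {V : Type u} [Fintype V] [DecidableEq V]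
      (G : SimpleGraph V) [DecidableRel G.Adj] (k : ℕ)
      (_ : ∀ u v, u ≠ v → ¬ G.Adj u v → Fintype.card V ≤ G.degree u + G.degree v + k)
      (_ : ∃ M, Vale.Agent.Lib.P308.IsPM G M),
      Vale.Agent.Lib.P308.numNearPM G ≤
        Fintype.card V ^ (max 2 (k + 1)) * Vale.Agent.Lib.P308.numPM G) :=
  ⟨fun G hex => Vale.Agent.Results.P308.IndepRatio.result G hex,
    fun G _ k hore hex => Vale.Agent.Results.P308.OreRatio.result G k hore hex⟩
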