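import Vale.Agent.Lib.P308.Count

/-- For every finite simple graph `G` with a perfect matching, the number of near-perfect
matchings is at most `n ^ (3 * α(G))` times the number of perfect matchings, where `n` is the
number of vertices and `α(G)` the independence number. -/
theorem Vale.Agent.Results.P308.IndepRatio.result {V : Type*} [Fintype V] [DecidableEq V]
    (G : SimpleGraph V) (hex : ∃ M, Vale.Agent.Lib.P308.IsPM G M) :
    Vale.Agent.Lib.P308.numNearPM G ≤
      Fintype.card V ^ (3 * G.indepNum) * Vale.Agent.Lib.P308.numPM G :=
  Vale.Agent.Lib.P308.numNearPM_le_pow_indepNum G hex
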